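import Vale.Agent.P141.H516.StopTr
import Vale.Agent.P141.H401.CutUV
import Vale.Agent.P141.H718.PairR

/-!
# P141, line (A): the stopped tree of the row of a label point, class data

* `Ar N M G h` : the cells of the root on which, and above which, the trace is at most `2 h`;
* `stop_pack` : the stopped tree of `Ar` with everything its users ask;
* `tr_fib`, `al_fib`, `ar_fib`, `root_fib` : the rows of `u` over the alive squares, from `FibU`.
-/

namespace Vale.Agent.P141.H516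

open Matrix Finset
open Vale.Agent.P141.PL (Pt iv mem_iv card_iv ix ix_ix)
open Vale.Agent.P141.PL.H315 (Tri)
open Vale.Agent.P141.H420 (Tr Nd quad_nonneg)
open Vale.Agent.P141.H483 (tmean hd)
open Vale.Agent.P141.H784 (gd gd_nonneg mem_iv' DK DK_le)
open Vale.Agent.P141.H48 (sst)
open Vale.Agent.P141.H677 (GT KT MT tr_T GT_trace GT_psd)
open Vale.Agent.P141.H677.Sk (lam1)
open Vale.Agent.P141.H401 (FibU)

noncomputable section

open scoped Classical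

set_option linter.unusedSectionVars false

section tree

variable {ι : Type*} [Fintype ι] [DecidableEq ι]
variable {N : ℕ} {M : ℤ} {Al : ℕ → ℤ → Prop} {l h : ℝ} {G K : ℕ → ℤ → Matrix ι ι ℝ}

/-- the matrices of the flow at a cell of `Al` -/
theorem MT_alive {z : Matrix ι ι ℝ} {k : ℕ} (h1 : 1 ≤ k) (hk : k ≤ N) {q : ℤ}
    (hup : ∀ k < N, ∀ q, Al k q → Al (k + 1) (q / 2)) (hq : q ∈ iv (N - k) M) (ha : Al k q) :
    MT l K k q = MT l (sT N M Al z K) k q := by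
  obtain ⟨j, rfl⟩ : ∃ j, k = j + 1 := ⟨k - 1, by omega⟩
  have hj : j < N := by omega
  have e0 : (2 * q) / 2 = q := by omega
  have e1 : (2 * q + 1) / 2 = q := by omega
  have i0 : 2 * q ∈ iv (N - j) M := by rw [← iv_half hj, e0]; exact hq
  have i1 : 2 * q + 1 ∈ iv (N - j) M := by rw [← iv_half hj, e1]; exact hq
  have e : hd (sT N M Al z K) (j + 1) q = hd K (j + 1) q := by
    show (1 / 2 : ℝ) • (sT N M Al z K j (2 * q) - sT N M Al z K j (2 * q + 1)) =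
      (1 / 2 : ℝ) • (K j (2 * q) - K j (2 * q + 1))
    rw [sT_child hj i0 (by rw [e0]; exact ha), sT_child hj i1 (by rw [e1]; exact ha)]
  unfold MT
  rw [e, sT_alive hup hk hq ha]

/-- the cells of the root below which nothing is tall -/
def Ar (N : ℕ) (M : ℤ) (G : ℕ → ℤ → Matrix ι ι ℝ) (h : ℝ) (k : ℕ) (q : ℤ) : Prop :=
  q ∈ iv (N - k) M ∧ Ah N G h k q

theorem Ar_up : ∀ k < N, ∀ q, Ar N M G h k q → Ar N M G h (k + 1) (q / 2) :=
  fun k hk q hq => ⟨(iv_half hk).2 hq.1, Ah_up k hk q hq.2⟩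

/-- inside the root the complement is 718's `Bd` -/
theorem not_Ah {k : ℕ} {q : ℤ} (hk : k ≤ N) :
    ¬ Ah N G h k q ↔ H718.Bd N (fun k q => (G k q).trace) h k q := by
  unfold Ah H718.Bd
  push Not
  constructor
  · rintro ⟨i, hi, h1⟩
    exact ⟨i, by omega, h1⟩
  · rintro ⟨i, hi, h1⟩
    exact ⟨i, by omega, h1⟩

/-- **The stopped tree**, everything in one statement. -/
theorem stop_pack (ht : Tr l N G K) (M : ℤ) (h0 : 0 ≤ h) (hr : (G N M).trace ≤ 4 * h) :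
    ∃ G' K' : ℕ → ℤ → Matrix ι ι ℝ, Tr l N G' K' ∧
      (∀ k < N, ∀ q, Ar N M G h k q → Ar N M G h (k + 1) (q / 2)) ∧
      (∀ k ≤ N, ∀ q, Ar N M G h k q → G' k q = G k q ∧ K' k q = K k q) ∧
      (∀ k < N, ∀ q, Ar N M G h (k + 1) (q / 2) → q ∈ iv (N - k) M →
        G' k q = G k q ∧ K' k q = K k q) ∧
      (∀ i, 1 ≤ i → i ≤ N → ∀ q, Ar N M G h i q → MT l K i q = MT l K' i q) ∧
      (∀ k ≤ N, ∀ q, (G' k q).trace ≤ 4 * h) ∧
      (∀ k ≤ N, ∀ q v, v ⬝ᵥ G' k q *ᵥ v ≤ 4 * h * (v ⬝ᵥ v)) ∧ G' N M = G N M ∧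
      DK N M K' ≤ 2 ^ N * ((1 + Real.log (1 + 4 * h / l)) * (G N M).trace) := by
  have hs := stopT (M := M) ht (Ah_up (G := G) (h := h))
  refine ⟨_, _, hs, Ar_up, fun k hk q hq => ⟨sT_alive Ah_up hk hq.1 hq.2,
    sT_alive Ah_up hk hq.1 hq.2⟩, fun k hk q hq hq' => ⟨sT_child hk hq' hq.2,
    sT_child hk hq' hq.2⟩, fun i h1 h2 q hq => MT_alive h1 h2 Ah_up hq.1 hq.2,
    fun k hk q => trace_le ht h0 hr k hk q, fun k hk q v => form_le ht h0 hr hk q v, sT_top, ?_⟩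
  have h1 := DK_le hs (by positivity : 0 ≤ 4 * h)
    (fun m v => form_le ht h0 hr (Nat.zero_le N) m v) M
  rw [sT_top] at h1
  exact h1

end tree

section cls

variable {ι : Type} [Fintype ι] [DecidableEq ι]
variable {p : H401.Num} {K : ℕ} {x : Pt} {s r : ℝ} {U : Tri} {u : ℤ → ℤ → ι → ℝ}

theorem ix_pow (k i : ℕ) (y : ℤ) : ix k y / 2 ^ i = ix (k + i) y := by
  unfold ix
  rw [Int.ediv_ediv_of_nonneg (by positivity), ← pow_add]

/-- **the row of an alive square** -/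
theorem tr_fib (hF : FibU p K x s r U u) {k : ℕ} (hk : k ≤ K) {x1 x2 : ℤ}
    (h1 : x1 ∈ iv K (ix K x.1)) (h2 : x2 ∈ iv K (ix K x.2.1)) (ha : ¬ sst p.Lm U.1 K k x1 x2) :
    (GT u x1 k (ix k x2)).trace ≤ lam1 p s r := by
  rw [GT_trace, inv_mul_le_iff₀ (by positivity), mul_comm]
  exact hF k hk x1 h1 x2 h2 ha

/-- **the rows above an alive square** -/
theorem al_fib (hF : FibU p K x s r U u) {k : ℕ} {x1 x2 : ℤ}
    (h1 : x1 ∈ iv K (ix K x.1)) (h2 : x2 ∈ iv K (ix K x.2.1)) (ha : ¬ sst p.Lm U.1 K k x1 x2)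
    (i : ℕ) (hi : k + i ≤ K) : (GT u x1 (k + i) (ix k x2 / 2 ^ i)).trace ≤ lam1 p s r := by
  rw [ix_pow]
  refine tr_fib hF hi h1 h2 fun h => ha ?_
  obtain ⟨m, h3, h4, h5⟩ := h
  exact ⟨m, by omega, h4, h5⟩

/-- the same on the cells, at most `2 h` for every `h ≥ lam1 / 2` -/
theorem ar_fib (hF : FibU p K x s r U u) {h : ℝ} (hh : lam1 p s r ≤ 2 * h) {k : ℕ} (hk : k ≤ K)
    {x1 x2 : ℤ} (h1 : x1 ∈ iv K (ix K x.1)) (h2 : x2 ∈ iv K (ix K x.2.1))
    (ha : ¬ sst p.Lm U.1 K k x1 x2) : Ar K (ix K x.2.1) (GT u x1) h k (ix k x2) := by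
  refine ⟨?_, fun i hi => (al_fib hF h1 h2 ha i hi).trans hh⟩
  rw [mem_iv] at h2 ⊢
  rw [ix_ix, show k + (K - k) = K by omega]
  exact h2

/-- the root is alive -/
theorem root_alive {Λ : ℝ} (hL : 1 ≤ Λ) (a : ℤ × ℤ → ℝ) (K : ℕ) (z y : ℤ) :
    ¬ sst Λ a K K z y := by
  rintro ⟨m, h1, h2, h3⟩
  obtain rfl : m = K := le_antisymm h2 h1
  have key : ∀ f : ℤ × ℤ → ℝ, (∀ w, 0 ≤ f w) → 0 ≤ PL.H315.avg
      (PL.H315.iv m z ×ˢ PL.H315.iv m y) f := fun f hf => by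
    unfold PL.H315.avg
    exact mul_nonneg (by positivity) (sum_nonneg fun w _ => hf w)
  rcases h3 with h3 | h3
  · have h4 : 0 ≤ PL.H315.A2 m a z y := key _ fun w => sq_nonneg _
    nlinarith
  · have h4 : 0 ≤ H48.A4 m a z y := key _ fun w => by positivity
    nlinarith

theorem root_fib (hF : FibU p K x s r U u) (hL : 1 ≤ p.Lm) {x1 : ℤ}
    (h1 : x1 ∈ iv K (ix K x.1)) : (GT u x1 K (ix K x.2.1)).trace ≤ lam1 p s r :=
  tr_fib hF le_rfl h1 (mem_iv.2 rfl) (root_alive hL _ _ _ _)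

end cls

end

end Vale.Agent.P141.H516
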