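import Vale.Agent.P141.H784.BMsum

/-!
# P141, line (A): the stopped tree

Letters of `H420.FlowM` / `H784`. `Al k q` is any predicate on the cells, closed upwards. The
stopped tree `sT N M Al z f` copies `f` on the cells of the root `M` whose parent is in `Al`, is
constant below, and is `z` outside the root.

* `stopT` : the stopped Gram tree and the stopped square roots are again a `Tr`;
* `sT_alive`, `sT_child`, `sT_below` : the values;
* `Ah` : the cells on which (and above which) the trace is at most `2 h`; `trace_le`, `form_le` :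
  the stopped Gram tree of `Ah` is bounded by `4 h`;
* `gd_alive`, `gd_dead`, `DK_alive`, `BM_total_st` : the numbers.
-/

namespace Vale.Agent.P141.H516

open Matrix Finset
open Vale.Agent.P141.PL (iv mem_iv card_iv ix ix_ix)
open Vale.Agent.P141.H420 (Tr Nd quad_nonneg)
open Vale.Agent.P141.H483 (tmean hd)
open Vale.Agent.P141.H784 (gd gd_nonneg mem_iv' DK Bd DK_le Bd_le BM_total)
open Vale.Agent.P075 (exists_sq psd_isSymm)

set_option linter.unusedSectionVars false

noncomputable section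

open scoped Classical

variable {β : Type*} {ι : Type*} [Fintype ι] [DecidableEq ι]

/-- the cell whose value is copied: the first cell above (or equal) whose parent is in `Al` -/
def loc (Al : ℕ → ℤ → Prop) : ℕ → ℕ → ℤ → ℕ × ℤ
  | 0, k, q => (k, q)
  | (r + 1), k, q => if Al (k + 1) (q / 2) then (k, q) else loc Al r (k + 1) (q / 2)

/-- **the stopped family** of the root `M`, value `z` outside the root -/
def sT (N : ℕ) (M : ℤ) (Al : ℕ → ℤ → Prop) (z : β) (f : ℕ → ℤ → β) (k : ℕ) (q : ℤ) : β :=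
  if q ∈ iv (N - k) M then f (loc Al (N - k) k q).1 (loc Al (N - k) k q).2 else z

variable {N : ℕ} {M : ℤ} {Al : ℕ → ℤ → Prop} {z : β} {f : ℕ → ℤ → β}

theorem iv_zero {q M : ℤ} (h : q ∈ iv 0 M) : q = M := by
  rw [mem_iv'] at h
  simp only [pow_zero, one_mul] at h
  omega

theorem iv_half {k : ℕ} (hk : k < N) {q : ℤ} : q / 2 ∈ iv (N - (k + 1)) M ↔ q ∈ iv (N - k) M := by
  rw [mem_iv', mem_iv']
  have e : N - k = (N - (k + 1)) + 1 := by omega
  rw [e, pow_succ]
  generalize (2 : ℤ) ^ (N - (k + 1)) = a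
  rw [show a * 2 * M = 2 * (a * M) by ring]
  generalize a * M = b
  omega

theorem sT_out {k : ℕ} {q : ℤ} (hq : q ∉ iv (N - k) M) : sT N M Al z f k q = z := if_neg hq

theorem sT_top : sT N M Al z f N M = f N M := by
  have h : M ∈ iv (N - N) M := by
    rw [mem_iv', Nat.sub_self]
    simp
  rw [sT, if_pos h, Nat.sub_self]
  rfl

/-- a cell whose parent is in `Al` -/
theorem sT_child {k : ℕ} (hk : k < N) {q : ℤ} (hq : q ∈ iv (N - k) M) (h : Al (k + 1) (q / 2)) :
    sT N M Al z f k q = f k q := by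
  rw [sT, if_pos hq, show N - k = (N - (k + 1)) + 1 by omega, loc, if_pos h]

/-- a cell whose parent is not in `Al` -/
theorem sT_below {k : ℕ} (hk : k < N) {q : ℤ} (hq : q ∈ iv (N - k) M) (h : ¬ Al (k + 1) (q / 2)) :
    sT N M Al z f k q = sT N M Al z f (k + 1) (q / 2) := by
  rw [sT, if_pos hq, sT, if_pos ((iv_half hk).2 hq), show N - k = (N - (k + 1)) + 1 by omega, loc,
    if_neg h]

/-- a cell of `Al` -/
theorem sT_alive (hup : ∀ k < N, ∀ q, Al k q → Al (k + 1) (q / 2)) {k : ℕ} (hk : k ≤ N) {q : ℤ}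
    (hq : q ∈ iv (N - k) M) (h : Al k q) : sT N M Al z f k q = f k q := by
  rcases hk.lt_or_eq with h1 | h1
  · exact sT_child h1 hq (hup k h1 q h)
  · subst h1
    rw [Nat.sub_self] at hq
    rw [iv_zero hq]
    exact sT_top


/-- **the stopped tree** -/
theorem stopT {l : ℝ} {G K : ℕ → ℤ → Matrix ι ι ℝ} (h : Tr l N G K)
    (hup : ∀ k < N, ∀ q, Al k q → Al (k + 1) (q / 2)) :
    Tr l N (sT N M Al 0 G) (sT N M Al (√l • (1 : Matrix ι ι ℝ)) K) := by
  have hl := Real.sqrt_pos.2 h.l_pos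
  refine ⟨h.l_pos, fun k q => ?_, fun k q => ?_, fun k q => ?_, fun k hk m => ?_⟩
  · unfold sT
    split_ifs
    · exact h.psG _ _
    · exact PosSemidef.zero
  · unfold sT
    split_ifs
    · exact h.pdK _ _
    · exact PosDef.one.smul hl
  · unfold sT
    split_ifs
    · exact h.sq _ _
    · rw [add_zero, smul_mul_smul_comm, Matrix.one_mul, Real.mul_self_sqrt h.l_pos.le]
  · have e0 : (2 * m) / 2 = m := by omega
    have e1 : (2 * m + 1) / 2 = m := by omega
    have i0 : 2 * m ∈ iv (N - k) M ↔ m ∈ iv (N - (k + 1)) M := by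
      rw [← iv_half hk, e0]
    have i1 : 2 * m + 1 ∈ iv (N - k) M ↔ m ∈ iv (N - (k + 1)) M := by
      rw [← iv_half hk, e1]
    by_cases hm : m ∈ iv (N - (k + 1)) M
    · by_cases ha : Al (k + 1) m
      · rw [sT_child hk (i0.2 hm) (by rw [e0]; exact ha),
          sT_child hk (i1.2 hm) (by rw [e1]; exact ha), sT_alive hup hk hm ha]
        exact h.mean k hk m
      · rw [sT_below hk (i0.2 hm) (by rw [e0]; exact ha),
          sT_below hk (i1.2 hm) (by rw [e1]; exact ha), e0, e1, ← two_smul ℝ, smul_smul]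
        norm_num
    · rw [sT_out hm, sT_out (fun h' => hm (i0.1 h')), sT_out (fun h' => hm (i1.1 h')), add_zero,
        smul_zero]

/-! ### Stopping by the row height -/

/-- the trace is at most `2 h` on the cell and on all its ancestors -/
def Ah (N : ℕ) (G : ℕ → ℤ → Matrix ι ι ℝ) (h : ℝ) (k : ℕ) (q : ℤ) : Prop :=
  ∀ i, k + i ≤ N → (G (k + i) (q / 2 ^ i)).trace ≤ 2 * h

theorem Ah_up {G : ℕ → ℤ → Matrix ι ι ℝ} {h : ℝ} :
    ∀ k < N, ∀ q, Ah N G h k q → Ah N G h (k + 1) (q / 2) := by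
  intro k hk q hA i hi
  have h1 := hA (i + 1) (by omega)
  rw [show k + (i + 1) = k + 1 + i by omega, pow_succ, mul_comm, ← Int.ediv_ediv_of_nonneg
    (by norm_num : (0 : ℤ) ≤ 2)] at h1
  exact h1

theorem Ah_self {G : ℕ → ℤ → Matrix ι ι ℝ} {h : ℝ} {k : ℕ} (hk : k ≤ N) {q : ℤ}
    (hA : Ah N G h k q) : (G k q).trace ≤ 2 * h := by
  have h1 := hA 0 (by omega)
  simpa using h1

/-- **the stopped tree is bounded** -/
theorem trace_le {l h : ℝ} {G K : ℕ → ℤ → Matrix ι ι ℝ} (ht : Tr l N G K) (h0 : 0 ≤ h)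
    (hr : (G N M).trace ≤ 4 * h) : ∀ k ≤ N, ∀ q, (sT N M (Ah N G h) 0 G k q).trace ≤ 4 * h := by
  intro k hk
  obtain ⟨r, hr'⟩ := Nat.exists_eq_add_of_le hk
  induction r generalizing k with
  | zero =>
    intro q
    by_cases hq : q ∈ iv (N - k) M
    · have e : k = N := by omega
      subst e
      rw [Nat.sub_self] at hq
      rw [iv_zero hq, sT_top]
      exact hr
    · rw [sT_out hq, trace_zero]
      linarith
  | succ r ih =>
    intro q
    have hk' : k < N := by omega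
    by_cases hq : q ∈ iv (N - k) M
    · by_cases ha : Ah N G h (k + 1) (q / 2)
      · rw [sT_child hk' hq ha]
        have h1 := Ah_self hk' ha
        have h2 := ht.mean k hk' (q / 2)
        have h3 : (G (k + 1) (q / 2)).trace = (1 / 2) * ((G k (2 * (q / 2))).trace +
            (G k (2 * (q / 2) + 1)).trace) := by
          rw [h2, trace_smul, trace_add, smul_eq_mul]
        have n1 := (ht.psG k (2 * (q / 2))).trace_nonneg
        have n2 := (ht.psG k (2 * (q / 2) + 1)).trace_nonneg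
        rcases Int.emod_two_eq_zero_or_one q with e | e
        · have e2 : 2 * (q / 2) = q := by omega
          rw [e2] at h3 n1 n2
          linarith
        · have e2 : 2 * (q / 2) + 1 = q := by omega
          rw [e2] at h3 n2
          linarith
      · rw [sT_below hk' hq ha]
        exact ih (k + 1) hk' (by omega) (q / 2)
    · rw [sT_out hq, trace_zero]
      linarith

/-- a form is at most the trace -/
theorem quad_trace {A : Matrix ι ι ℝ} (hA : A.PosSemidef) (v : ι → ℝ) :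
    v ⬝ᵥ A *ᵥ v ≤ A.trace * (v ⬝ᵥ v) := by
  obtain ⟨B, hB, rfl⟩ := exists_sq hA
  have hBs := psd_isSymm hB
  have e1 : v ⬝ᵥ ((B * B) *ᵥ v) = (B *ᵥ v) ⬝ᵥ (B *ᵥ v) := by
    rw [← mulVec_mulVec, dotProduct_mulVec, ← mulVec_transpose, hBs]
  have e3 : (B * B).trace = ∑ i, ∑ j, B i j ^ 2 := by
    simp only [Matrix.trace, diag_apply, Matrix.mul_apply]
    refine Finset.sum_congr rfl fun i _ => Finset.sum_congr rfl fun j _ => ?_
    rw [sq]
    congr 1
    exact congrFun (congrFun hBs i) j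
  rw [e1, e3, dotProduct, Finset.sum_mul]
  refine Finset.sum_le_sum fun i _ => ?_
  have h := Finset.sum_mul_sq_le_sq_mul_sq univ (fun j => B i j) v
  simp only [mulVec, dotProduct]
  rw [← sq]
  refine h.trans (le_of_eq ?_)
  congr 1
  exact Finset.sum_congr rfl fun j _ => sq _

theorem form_le {l h : ℝ} {G K : ℕ → ℤ → Matrix ι ι ℝ} (ht : Tr l N G K) (h0 : 0 ≤ h)
    (hr : (G N M).trace ≤ 4 * h) {k : ℕ} (hk : k ≤ N) (q : ℤ) (v : ι → ℝ) :
    v ⬝ᵥ sT N M (Ah N G h) 0 G k q *ᵥ v ≤ 4 * h * (v ⬝ᵥ v) := by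
  have h1 := (stopT (M := M) ht (Ah_up (G := G) (h := h))).psG k q
  refine (quad_trace h1 v).trans (mul_le_mul_of_nonneg_right (trace_le ht h0 hr k hk q) ?_)
  exact sum_nonneg fun i _ => mul_self_nonneg (v i)

/-! ### The numbers -/

/-- the square function at a cell of `Al` -/
theorem gd_alive {z : Matrix ι ι ℝ} {K : ℕ → ℤ → Matrix ι ι ℝ} {k : ℕ} (h1 : 1 ≤ k) (hk : k ≤ N)
    {q : ℤ} (hq : q ∈ iv (N - k) M) (ha : Al k q) : gd (sT N M Al z K) k q = gd K k q := by
  obtain ⟨j, rfl⟩ : ∃ j, k = j + 1 := ⟨k - 1, by omega⟩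
  have hj : j < N := by omega
  have e0 : (2 * q) / 2 = q := by omega
  have e1 : (2 * q + 1) / 2 = q := by omega
  have i0 : 2 * q ∈ iv (N - j) M := by rw [← iv_half hj, e0]; exact hq
  have i1 : 2 * q + 1 ∈ iv (N - j) M := by rw [← iv_half hj, e1]; exact hq
  have e : hd (sT N M Al z K) (j + 1) q = hd K (j + 1) q := by
    show (1 / 2 : ℝ) • (sT N M Al z K j (2 * q) - sT N M Al z K j (2 * q + 1)) =
      (1 / 2 : ℝ) • (K j (2 * q) - K j (2 * q + 1))
    rw [sT_child hj i0 (by rw [e0]; exact ha), sT_child hj i1 (by rw [e1]; exact ha)]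
  unfold gd
  rw [e]

/-- the square function at a cell outside `Al` -/
theorem gd_dead {z : Matrix ι ι ℝ} {K : ℕ → ℤ → Matrix ι ι ℝ} {k : ℕ} (h1 : 1 ≤ k) (hk : k ≤ N)
    {q : ℤ} (hq : q ∈ iv (N - k) M) (ha : ¬ Al k q) : gd (sT N M Al z K) k q = 0 := by
  obtain ⟨j, rfl⟩ : ∃ j, k = j + 1 := ⟨k - 1, by omega⟩
  have hj : j < N := by omega
  have e0 : (2 * q) / 2 = q := by omega
  have e1 : (2 * q + 1) / 2 = q := by omega
  have i0 : 2 * q ∈ iv (N - j) M := by rw [← iv_half hj, e0]; exact hq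
  have i1 : 2 * q + 1 ∈ iv (N - j) M := by rw [← iv_half hj, e1]; exact hq
  have e : hd (sT N M Al z K) (j + 1) q = 0 := by
    show (1 / 2 : ℝ) • (sT N M Al z K j (2 * q) - sT N M Al z K j (2 * q + 1)) = 0
    rw [sT_below hj i0 (by rw [e0]; exact ha), sT_below hj i1 (by rw [e1]; exact ha), e0, e1,
      sub_self, smul_zero]
  unfold gd
  rw [e, Matrix.zero_mul, trace_zero]

/-- the square function of the stopped tree is the sum over `Al` -/
theorem DK_st {z : Matrix ι ι ℝ} {K : ℕ → ℤ → Matrix ι ι ℝ} :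
    DK N M (sT N M Al z K) =
      ∑ k ∈ Icc 1 N, 2 ^ k * ∑ q ∈ (iv (N - k) M).filter (fun q => Al k q), gd K k q := by
  unfold DK
  refine sum_congr rfl fun k hk => ?_
  rw [mem_Icc] at hk
  rw [sum_filter]
  congr 1
  refine sum_congr rfl fun q hq => ?_
  split_ifs with ha
  · exact gd_alive hk.1 hk.2 hq ha
  · exact gd_dead hk.1 hk.2 hq ha

/-- **the square function over the cells with rows at most `2 h`** -/
theorem DK_alive {l h : ℝ} {G K : ℕ → ℤ → Matrix ι ι ℝ} (ht : Tr l N G K) (h0 : 0 ≤ h)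
    (hr : (G N M).trace ≤ 4 * h) :
    ∑ k ∈ Icc 1 N, 2 ^ k * ∑ q ∈ (iv (N - k) M).filter (fun q => Ah N G h k q), gd K k q ≤
      2 ^ N * ((1 + Real.log (1 + 4 * h / l)) * (G N M).trace) := by
  have h1 := DK_le (stopT (M := M) ht (Ah_up (G := G) (h := h))) (by positivity : 0 ≤ 4 * h)
    (fun m v => form_le ht h0 hr (Nat.zero_le N) m v) M
  rw [sT_top] at h1
  rw [← DK_st (z := √l • (1 : Matrix ι ι ℝ))]
  exact h1

/-- **both numbers of the stopped tree**, no height at the scale `0` -/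
theorem BM_total_st {l h : ℝ} {G K : ℕ → ℤ → Matrix ι ι ℝ} (ht : Tr l N G K) (h0 : 0 ≤ h)
    (hr : (G N M).trace ≤ 4 * h) (A : ℕ) :
    DK N M (sT N M (Ah N G h) (√l • (1 : Matrix ι ι ℝ)) K) + Bd N M (sT N M (Ah N G h) 0 G) ≤
      2 ^ N * ((1 + Real.log (1 + 4 * h / l) + 2 * A) * (G N M).trace + 16 * h / 2 ^ A) := by
  have h1 := BM_total (M := M) (stopT (M := M) ht (Ah_up (G := G) (h := h)))
    (H := 4 * h) (P := 4 * h)
    (fun p => trace_le ht h0 hr 0 (Nat.zero_le N) p) (by positivity)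
    (fun m v => form_le ht h0 hr (Nat.zero_le N) m v) A
  rw [sT_top] at h1
  refine h1.trans (le_of_eq ?_)
  ring

end

end Vale.Agent.P141.H516
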